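import Vale.Agent.P283R.Br.Lc2

/-!
# P283R: centres along an étale neighbourhood
-/

set_option linter.all false

open Set CategoryTheory AlgebraicGeometry
open Vale.Agent.P289 Vale.Agent.P289.H219 Vale.Agent.P270L Vale.Agent.P283M.Am Vale.Agent.P299.G

noncomputable section

namespace Vale.Agent.P283R.Eu

open Vale.Agent.P287D Vale.Agent.P283M Vale.Agent.P283M.Br Vale.Agent.P283M.Stm.Var
open Vale.Agent.P283R.Br

variable {X Z W : Stm.Var} {f : X.X ⟶ Z.X} {e : W.X ⟶ Z.X} {p : Z.K ≃+* X.K}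

theorem un_iff {O : ValuationSubring X.K} {x : Pt X.X} (d : Dom O x) {a : X.K} (h : RegAt a x) :
    UnAt a x ↔ a ≠ 0 ∧ a⁻¹ ∈ O :=
  ⟨fun u => ⟨u.1, (d _ u.2.2).1⟩, fun u => ⟨u.1, h, (d _ h).2 u.1 u.2⟩⟩

/-- the centres of two places, one above the other, have the same image -/
theorem cen_eq {ι : X.K →+* W.K} (hp : Pb f p) {w : Pt W.X}
    (hι : ∀ a : St Z.X (w.map e), ι (p (toRat a)) = toRat (val (e.stalkMap w) a))
    {V : Z.X.Opens} (hV : IsAffineOpen V) (wV : w.map e ∈ V) {x : Pt X.X} (hx : x.map f ∈ V)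
    {y : Pt W.X} (hy : y.map e ∈ V) {P : Pl X.K} {P' : Pl W.K} (l : Lies ι P' P)
    (d : Dom P.ring x) (d' : Dom P'.ring y) : y.map e = x.map f := by
  have : Nonempty ↑(f ⁻¹ᵁ V) := ⟨⟨x, hx⟩⟩
  have : Nonempty ↑(e ⁻¹ᵁ V) := ⟨⟨y, hy⟩⟩
  have : Nonempty V := ⟨⟨_, hx⟩⟩
  have k : ∀ t : Γ(Z.X, V), ι (pl f V t) = pl e V t := fun t => by
    rw [← pl_germ hx, ← pl_germ wV]
    refine Eq.trans (congrArg ι ?_) (hι _)
    refine (hp x _).symm.trans (congrArg p ?_)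
    exact (H594.toK_germ V _ hx t).trans (H594.toK_germ V _ wV t).symm
  have k2 : ∀ t : Γ(Z.X, V), e y ∈ Z.X.basicOpen t ↔ f x ∈ Z.X.basicOpen t := fun t => by
    rw [← un_pl hx, ← un_pl hy]
    refine (un_iff d' (mem_reg.1 (pl_reg e V t) y hy)).trans
      (Iff.trans ?_ (un_iff d (mem_reg.1 (pl_reg f V t) x hx)).symm)
    rw [← k, l, map_inv₀, map_ne_zero]
  have k3 : hV.primeIdealOf ⟨_, hy⟩ = hV.primeIdealOf ⟨_, hx⟩ :=
    PrimeSpectrum.ext (Ideal.ext fun t => by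
      rw [mem_primeIdealOf, mem_primeIdealOf, ← Scheme.mem_basicOpen _ _ _ hy,
        ← Scheme.mem_basicOpen _ _ _ hx, k2])
  exact (hV.fromSpec_primeIdealOf ⟨_, hy⟩).symm.trans
    ((congrArg hV.fromSpec k3).trans (hV.fromSpec_primeIdealOf ⟨_, hx⟩))

end Vale.Agent.P283R.Eu
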